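import Vale.Agent.P181.H35.Inj

set_option autoImplicit false

/-!
# P181: the chain with the two-letter patterns (3, 2) for four slots and (4, 2) for five slots
-/

namespace Vale.Agent.P181.H35

open Vale.Agent.P181 Vale.Agent.P181.H780

/-- first letters -/
def m1 (k : ℕ) : ℕ := if k = 4 then 3 else if k = 5 then 4 else k

/-- second letters -/
def m2 (k : ℕ) : ℕ := if k = 4 ∨ k = 5 then 2 else 0

/-- the bounds -/
def BB (k : ℕ) : ℕ :=
  if k ≤ 1 then 0 else if k = 2 then 1 else if k = 3 then 4 else if k = 4 then 9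
    else if k = 5 then 14 else 20

variable {A : Type*} [CommRing A] [Algebra ℂ A]

/-- If the pattern `(3, 2)` works for four slots, the canonical kernel of degree `5` is zero for
`b ≥ 14`. -/
theorem noKer_five_of {L : Submodule ℂ A} (hL : HasRoots L)
    (h4 : ∀ x ∈ L, ∀ y ∈ L, BaseAt L 4 5 (x ^ 3 * y ^ 2)) {b : ℕ} (hb : 14 ≤ b) :
    NoKer L 5 b := by
  refine chain hL m1 m2 BB 5 ?_ ?_ b (by simpa [BB] using hb)
  · intro k hk hk5
    interval_cases k <;> simp [BB, m1, m2]
  · intro k hk hk5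
    interval_cases k
    · exact Or.inl (by simp [m1, m2])
    · exact Or.inl (by simp [m1, m2])
    · exact Or.inl (by simp [m1, m2])
    · refine Or.inr ⟨by simp [m1, m2], ?_⟩
      simpa [m1, m2] using h4

/-- If the patterns `(3, 2)` for four slots and `(4, 2)` for five slots work, the canonical kernel
of degree `6` is zero for `b ≥ 20`. -/
theorem noKer_six_of {L : Submodule ℂ A} (hL : HasRoots L)
    (h4 : ∀ x ∈ L, ∀ y ∈ L, BaseAt L 4 5 (x ^ 3 * y ^ 2))
    (h5 : ∀ x ∈ L, ∀ y ∈ L, BaseAt L 5 6 (x ^ 4 * y ^ 2)) {b : ℕ} (hb : 20 ≤ b) :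
    NoKer L 6 b := by
  refine chain hL m1 m2 BB 6 ?_ ?_ b (by simpa [BB] using hb)
  · intro k hk hk5
    interval_cases k <;> simp [BB, m1, m2]
  · intro k hk hk5
    interval_cases k
    · exact Or.inl (by simp [m1, m2])
    · exact Or.inl (by simp [m1, m2])
    · exact Or.inl (by simp [m1, m2])
    · refine Or.inr ⟨by simp [m1, m2], ?_⟩
      simpa [m1, m2] using h4
    · refine Or.inr ⟨by simp [m1, m2], ?_⟩
      simpa [m1, m2] using h5

universe u

variable {V : Type u} [AddCommGroup V] [Module ℂ V] [FiniteDimensional ℂ V]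

/-- Injectivity of the canonical map for `a = 6`, `b ≥ 20`, from the two patterns. -/
theorem foulkesHowe_six_of
    (h4 : ∀ x ∈ linFun V, ∀ y ∈ linFun V, BaseAt (linFun V) 4 5 (x ^ 3 * y ^ 2))
    (h5 : ∀ x ∈ linFun V, ∀ y ∈ linFun V, BaseAt (linFun V) 5 6 (x ^ 4 * y ^ 2))
    {b : ℕ} (hb : 20 ≤ b) : Function.Injective (foulkesHowe 6 b V) :=
  foulkesHowe_injective_of_noKer (noKer_six_of (hasRoots_of_forall_field (linFun V)) h4 h5 hb)

end Vale.Agent.P181.H35
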