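import Vale.Agent.P181.H35.Chain20
import Vale.Agent.P181.H558.Reduce6

set_option autoImplicit false

namespace Vale.Agent.P181.H35

open Vale.Agent.P181 Vale.Agent.P181.H280 Vale.Agent.P181.H54 Vale.Agent.P181.H780
  Vale.Agent.P181.H558

/-- The pairs `(6, b)` with `b ≥ 20`, from the two patterns. -/
theorem fo_twenty_of
    (h4 : ∀ x ∈ linFun (Fin 6 → ℂ), ∀ y ∈ linFun (Fin 6 → ℂ),
      BaseAt (linFun (Fin 6 → ℂ)) 4 5 (x ^ 3 * y ^ 2))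
    (h5 : ∀ x ∈ linFun (Fin 6 → ℂ), ∀ y ∈ linFun (Fin 6 → ℂ),
      BaseAt (linFun (Fin 6 → ℂ)) 5 6 (x ^ 4 * y ^ 2))
    (b : ℕ) (hb : 20 ≤ b) (lam : Fin 6 → ℕ) : Fo b lam :=
  finrank_le_of_inj (foulkesHowe 6 b (Fin 6 → ℂ)) _ _ (fun x hx => H536.foulkesHowe_hwSpace lam x hx)
    (fun x _ h0 => (injective_iff_map_eq_zero _).1 (foulkesHowe_six_of h4 h5 hb) x h0)

end Vale.Agent.P181.H35
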