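import Vale.Agent.P181.H35.Fo20
import Vale.Agent.P181.H177.CurveAB

set_option autoImplicit false

/-!
# P181, a = 6 (and a = 5): the canonical map is injective for b ≥ 20 (b ≥ 14)
-/

namespace Vale.Agent.P181.H35

open Vale.Agent.P181 Vale.Agent.P181.H780 Vale.Agent.P181.H558

section

variable {A : Type*} [CommRing A] [Algebra ℂ A]

/-- The canonical kernel of degree `5` is zero for `b ≥ 14`. -/
theorem noKer_five {L : Submodule ℂ A} (hL : HasRoots L) {b : ℕ} (hb : 14 ≤ b) : NoKer L 5 b :=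
  noKer_five_of hL (H177.Cv.baseAt_a L) hb

/-- The canonical kernel of degree `6` is zero for `b ≥ 20`. -/
theorem noKer_six {L : Submodule ℂ A} (hL : HasRoots L) {b : ℕ} (hb : 20 ≤ b) : NoKer L 6 b :=
  noKer_six_of hL (H177.Cv.baseAt_a L) (H177.Cv.baseAt_b L) hb

end

universe u

/-- **The canonical map for `a = 6`, `b ≥ 20` is injective.** -/
theorem foulkesHowe_six {V : Type u} [AddCommGroup V] [Module ℂ V] [FiniteDimensional ℂ V]
    {b : ℕ} (hb : 20 ≤ b) : Function.Injective (foulkesHowe 6 b V) :=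
  foulkesHowe_six_of (H177.Cv.baseAt_a _) (H177.Cv.baseAt_b _) hb

/-- **The pairs `(6, b)` with `b ≥ 20`.** -/
theorem fo_twenty (b : ℕ) (hb : 20 ≤ b) (lam : Fin 6 → ℕ) : Fo b lam :=
  fo_twenty_of (H177.Cv.baseAt_a _) (H177.Cv.baseAt_b _) b hb lam

end Vale.Agent.P181.H35
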